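import Vale.Agent.P354CB.Ez

/-!
Countably many developments contain all developments.
-/

open scoped ContDiff
open Set Filter Topology Metric

namespace Vale.Agent.P354CB17

open Vale.Agent.P354n Vale.Agent.P354CB Vale.Agent.P354XJ
open Vale.Agent.P354I (X Dat)

/-- Every chart has size 2 / k near a given point, for some k. -/
theorem ok_near (K : LK3) {M : Spc} (h : St M) {e : M.Chart} {p : R4} (hp : p ∈ tgt e) :
    ∃ k : ℕ, 1 ≤ k ∧ ∀ᶠ z in 𝓝 p, Ok M e z k := by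
  obtain ⟨Γ, g1, g2⟩ := K.gam (h.lor e)
  have o := (isOpen_tgt e).mem_nhds hp
  have c : Tendsto (fun z => ‖Γ z‖) (𝓝 p) (𝓝 ‖Γ p‖) :=
    ContinuousAt.norm (E := R4 →L[ℝ] R4 →L[ℝ] R4) (f := Γ) (g1.continuousOn.continuousAt o)
  obtain ⟨r, r0, hr⟩ := Metric.eventually_nhds_iff_ball.1 ((show ∀ᶠ z in 𝓝 p, z ∈ tgt e from o).and
    (c.eventually (Iio_mem_nhds (lt_add_one ‖Γ p‖))))
  obtain ⟨k, hk⟩ := exists_nat_gt (max (max 1 (‖Γ p‖ + 1)) (4 / r))
  simp only [max_lt_iff] at hk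
  have k0 : (0 : ℝ) < k := one_pos.trans hk.1.1
  refine ⟨k, Nat.one_le_cast.1 hk.1.1.le, ?_⟩
  filter_upwards [ball_mem_nhds p (half_pos r0)] with z hz y hy
  have b : 2 / (k : ℝ) ≤ r / 2 := by
    have := (div_lt_iff₀ r0).1 hk.2
    rw [div_le_iff₀ k0]
    linarith
  have m := hr y (by
    rw [mem_ball] at hz ⊢
    linarith [dist_triangle y z p, mem_closedBall.1 hy])
  refine ⟨m.1, fun y a b => Γ y a b, (g2 y m.1 _).2 fun _ _ => rfl, fun a b => ?_⟩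
  refine ((Γ y).le_opNorm₂ a b).trans ?_
  gcongr
  exact (m.2.trans hk.1.2).le

theorem sat (Z : L0) (T : L3) (hS : STEP) (hR : RUN) : SAT := fun d hd hO => by
  choose A0 h0 using hO
  obtain ⟨E, E1, E2⟩ := TopologicalSpace.isOpen_iUnion_countable
    (fun y : {y : X // y ≠ 0} => (A0 y.1 y.2).O) fun y => (A0 y.1 y.2).h.op
  obtain ⟨y0, hy0⟩ := exists_ne (0 : X)
  obtain ⟨τ, hτ⟩ := (E1.insert ⟨y0, hy0⟩).exists_eq_range (insert_nonempty _ _)
  choose σ hσ using hS d hd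
  let A : ℕ × List ℕ → LD d := fun i => i.2.foldr (fun m C => σ C m) (A0 (τ i.1).1 (τ i.1).2)
  have cov : ∀ y ≠ 0, ∃ n, y ∈ (A (n, [])).O := fun y hy => by
    obtain ⟨w, w1, w2⟩ := mem_iUnion₂.1 (E2.ge (mem_iUnion.2 ⟨⟨y, hy⟩, h0 y hy⟩))
    obtain ⟨n, rfl⟩ := hτ.le (mem_insert_of_mem _ w1)
    exact ⟨n, w2⟩
  refine ⟨A, fun y hy => (cov y hy).elim fun n h => ⟨_, h⟩, fun B p => ?_⟩
  have cl : IsClopen {p : B.N.pt | ∃ i x, Rel B (A i) p x} := by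
    refine ⟨isClosed_of_closure_subset fun p hp => ?_, isOpen_iff_mem_nhds.2 ?_⟩
    · obtain ⟨e, he⟩ := B.N.cover p
      obtain ⟨k, k1, hk⟩ := ok_near Z.k3 B.h.gh.st (co_mem he)
      obtain ⟨δ, δ0, hδ⟩ := hR k (Nat.one_le_cast.2 k1)
      obtain ⟨q, ⟨i, hq⟩, a, b, c⟩ := ((mem_closure_iff_frequently.1 hp).and_eventually
        ((on_nhds he).and (((co_cont he).eventually hk).and
          ((co_cont he).eventually (closedBall_mem_nhds _ δ0))))).exists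
      obtain ⟨n, hn⟩ := hσ (A i) B e (co e q) k k1 b (by rwa [inv_co a])
      have := hδ d hd B _ e _ (co e p - co e q) b hn (by rwa [← dist_eq_norm, dist_comm])
      rw [add_sub_cancel, inv_co he] at this
      exact ⟨(i.1, n :: i.2), this⟩
    · rintro p ⟨i, x, U, ψ, h, m, -⟩
      exact mem_of_superset (h.hull.op.mem_nhds m) fun q hq => ⟨i, _, U, ψ, h, hq, rfl⟩
  obtain ⟨_, ⟨y, hy, rfl⟩, C, -, c1, c2, c3⟩ :=
    (Z.l2.g3 _ _ (Z.l2.ac d _ _ _ hd B.h)).con univ Hull.univ p trivial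
  obtain ⟨n, hn⟩ := cov y (B.h.nz hy)
  exact c1.subset_isClopen cl ⟨_, c3, _, _, T.base d hd B _ y hy hn⟩ c2

end Vale.Agent.P354CB17
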