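import Vale.Agent.P354CB.Ez

/-!
Countably many developments contain all charts of a given size.
-/

open scoped ContDiff
open Set Filter Topology Metric

namespace Vale.Agent.P354CB17

open Vale.Agent.P354n Vale.Agent.P354CB Vale.Agent.P354XJ
open Vale.Agent.P354I (Dat)

theorem lm_cd {M N : Spc} {ψ : M.pt → N.pt} {e : M.Chart} {e' : N.Chart} {z : R4} (hz : z ∈ tgt e)
    (h : LM ψ (inv e z)) (k : On e' (ψ (inv e z))) :
    ContDiffAt ℝ ∞ (fun y => co e' (ψ (inv e y))) z := by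
  simpa only [co_inv hz] using (h.2 e e' (inv_mem hz) k).1

/-- The chain rule in charts. -/
theorem lm_chain {M N P : Spc} {ψ : M.pt → N.pt} {χ : N.pt → P.pt} {e : M.Chart} {e0 : N.Chart}
    {e' : P.Chart} {z : R4} (hz : z ∈ tgt e) (h : LM ψ (inv e z)) (k : On e0 (ψ (inv e z)))
    (h' : LM χ (ψ (inv e z))) (k' : On e' (χ (ψ (inv e z)))) :
    fderiv ℝ (fun y => co e' (χ (ψ (inv e y)))) z =
      (fderiv ℝ (fun y => co e' (χ (inv e0 y))) (co e0 (ψ (inv e z)))).comp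
        (fderiv ℝ (fun y => co e0 (ψ (inv e y))) z) := by
  rw [← fderiv_comp z ((h'.2 e0 e' k k').1.differentiableAt (by simp))
    ((lm_cd hz h k).differentiableAt (by simp))]
  refine EventuallyEq.fderiv_eq ?_
  filter_upwards [(h.1.comp (inv_cont hz)).eventually (on_nhds k)] with y hy
  exact congrArg (fun x => co e' (χ x)) (inv_co hy).symm

variable {d : Dat}

/-- The points and frames of the chart e of A at which C has a chart of size 1 / k. -/
def G (A : LD d) (e : A.N.Chart) (k : ℝ) (C : LD d) : Set (R4 × (R4 →L[ℝ] R4)) :=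
  {q | ∃ (U : Set A.N.pt) (ψ : A.N.pt → C.N.pt) (e' : C.N.Chart) (m m' : R4 →L[ℝ] R4),
    Com A C U ψ ∧ inv e q.1 ∈ U ∧ On e' (ψ (inv e q.1)) ∧ (∀ u, m' (m u) = u ∧ m (m' u) = u) ∧
    (∀ u, ‖u‖ ≤ 1 / k → co e' (ψ (inv e q.1)) + m u ∈ tgt e' ∧
      Gb (C.N.g e') (co e' (ψ (inv e q.1)) + m u) m m' k) ∧
    ‖m'.comp ((fderiv ℝ (fun y => co e' (ψ (inv e y))) q.1).comp q.2)‖ ≤ 2}

theorem self_good {A B : LD d} {U ψ φ} (h : Com B A U ψ) (h' : Com A B (ψ '' U) φ)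
    (hφ : ∀ x ∈ U, φ (ψ x) = x) {e : B.N.Chart} {e0 : A.N.Chart} {z : R4} {k : ℝ} (hk : 0 < k)
    (o : Ok B.N e z k) (hU : inv e z ∈ U) (h0 : On e0 (ψ (inv e z))) :
    G A e0 k B ∈ 𝓝 (co e0 (ψ (inv e z)), fderiv ℝ (fun y => co e0 (ψ (inv e y))) z) := by
  have hz : z ∈ tgt e := (o z (mem_closedBall_self (by positivity))).1
  have hx := co_mem h0
  have m1 : ψ (inv e z) ∈ ψ '' U := mem_image_of_mem ψ hU
  have l1 := h'.lm _ m1
  have o1 : On e (φ (ψ (inv e z))) := by rw [hφ _ hU]; exact inv_mem hz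
  have c1 : ContinuousAt (inv e0) (co e0 (ψ (inv e z))) := inv_cont hx
  have c2 : Tendsto (inv e0) (𝓝 (co e0 (ψ (inv e z)))) (𝓝 (ψ (inv e z))) := by
    simpa only [ContinuousAt, inv_co h0] using c1
  have cd := (l1.2 e0 e h0 o1).1
  have e1 : co e (φ (inv e0 (co e0 (ψ (inv e z))))) = z := by rw [inv_co h0, hφ _ hU, co_inv hz]
  have e2 : (fderiv ℝ (fun y => co e (φ (inv e0 y))) (co e0 (ψ (inv e z)))).comp
      (fderiv ℝ (fun y => co e0 (ψ (inv e y))) z) = .id ℝ R4 := by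
    rw [← lm_chain hz (h.lm _ hU) h0 l1 o1, ← fderiv_id (x := z)]
    refine EventuallyEq.fderiv_eq ?_
    filter_upwards [(inv_cont hz).eventually (h.hull.op.mem_nhds hU),
      (isOpen_tgt e).mem_nhds hz] with y a b
    rw [hφ _ a, co_inv b, id]
  have c3 : ContinuousAt (fun q : R4 × (R4 →L[ℝ] R4) =>
      ‖(fderiv ℝ (fun y => co e (φ (inv e0 y))) q.1).comp q.2‖)
      (co e0 (ψ (inv e z)), fderiv ℝ (fun y => co e0 (ψ (inv e y))) z) :=
    ((ContinuousAt.comp (f := Prod.fst) (cd.continuousAt_fderiv (by simp))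
      continuousAt_fst).clm_comp continuousAt_snd).norm
  filter_upwards [continuousAt_fst.eventually (c2.eventually (h'.hull.op.mem_nhds m1)),
    continuousAt_fst.eventually ((l1.1.tendsto.comp c2).eventually (on_nhds o1)),
    continuousAt_fst.eventually (cd.continuousAt.eventually
      (closedBall_mem_nhds _ (one_div_pos.2 hk))),
    c3.eventually (Iio_mem_nhds (a := 2) (by
      beta_reduce
      rw [e2]
      exact ContinuousLinearMap.norm_id_le.trans_lt one_lt_two))] with q a b c f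
  refine ⟨_, φ, e, .id ℝ R4, .id ℝ R4, h', a, b, fun _ => ⟨rfl, rfl⟩, fun u hu => o _ ?_, le_of_lt f⟩
  rw [e1, dist_eq_norm] at c
  rw [mem_closedBall, dist_eq_norm, add_sub_right_comm, show 2 / k = 1 / k + 1 / k by ring]
  exact (norm_add_le _ _).trans (add_le_add c hu)

theorem step (T : L3) : STEP := fun d hd A => by
  have := A.h.gh.sc
  obtain ⟨E, E1, E2⟩ := TopologicalSpace.isOpen_iUnion_countable (fun e => (A.N.toE e).source)
    fun e => (A.N.toE e).open_source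
  choose S S1 S2 using fun (e : A.N.Chart) (k : ℕ) =>
    TopologicalSpace.isOpen_iUnion_countable (fun C => interior (G A e k C)) fun _ => isOpen_interior
  obtain ⟨σ, hσ⟩ := ((E1.biUnion fun e _ => countable_iUnion (S1 e)).insert A).exists_eq_range
    (insert_nonempty _ _)
  refine ⟨σ, fun B e z k hk o ⟨x, U, ψ, h, hU, hx⟩ => ?_⟩
  subst hx
  have k0 : (0 : ℝ) < k := Nat.cast_pos.2 hk
  have hz : z ∈ tgt e := (o z (mem_closedBall_self (by positivity))).1
  obtain ⟨e0, m0, h0⟩ := mem_iUnion₂.1 (E2.ge (mem_iUnion.2 (A.N.cover (ψ (inv e z)))))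
  obtain ⟨φ, h', hφ⟩ := T.symm d hd B A U ψ h
  obtain ⟨C, m1, h1⟩ := mem_iUnion₂.1 ((S2 e0 k).ge (mem_iUnion.2
    ⟨B, mem_interior_iff_mem_nhds.2 (self_good h h' hφ k0 o hU h0)⟩))
  obtain ⟨n, rfl⟩ := hσ.le (mem_insert_of_mem _ (mem_iUnion₂.2 ⟨e0, m0, mem_iUnion.2 ⟨k, m1⟩⟩))
  obtain ⟨V, χ, e', m, m', a1, a2, a3, a4, a5, a6⟩ := interior_subset h1
  simp only [inv_co (show On e0 _ from h0)] at a2 a3 a5
  refine ⟨n, _, _, e', m, m', T.trans d hd _ _ _ U ψ V χ h a1, ⟨hU, a2⟩, a3, a4, a5, ?_⟩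
  exact (lm_chain hz (h.lm _ hU) h0 (a1.lm _ a2) a3).symm ▸ a6

end Vale.Agent.P354CB17
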